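import Mathlib.RingTheory.Ideal.KrullsHeightTheorem
import Mathlib.RingTheory.Ideal.MinimalPrime.Noetherian
import Mathlib.RingTheory.AdicCompletion.Noetherian
import Mathlib.RingTheory.Finiteness.Ideal
import Mathlib.RingTheory.Filtration
import Mathlib.RingTheory.DiscreteValuationRing.Basic
import Mathlib.RingTheory.PowerSeries.Basic
import Mathlib.RingTheory.PowerSeries.NoZeroDivisors
import Mathlib.RingTheory.PowerSeries.Inverse

/-!
# P217: commutative algebra for points of closed subsets
-/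

noncomputable section

namespace Vale.Agent.P217.Points

open Finset

/-- A prime containing `J`, maximal among those avoiding `a`. -/
lemma exists_prime_avoiding {R : Type*} [CommRing R] [IsNoetherianRing R] {J : Ideal R} {a : R}
    (ha : a ∉ J.radical) :
    ∃ Q : Ideal R, Q.IsPrime ∧ J ≤ Q ∧ a ∉ Q ∧ ∀ P : Ideal R, P.IsPrime → Q < P → a ∈ P := by
  have hne : ∃ Q : Ideal R, Q.IsPrime ∧ J ≤ Q ∧ a ∉ Q := by
    by_contra hc
    push Not at hc
    apply ha
    rw [Ideal.radical_eq_sInf, Ideal.mem_sInf]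
    exact fun {P} hP => hc P hP.2 hP.1
  obtain ⟨Q, hQ⟩ := exists_maximal_of_wellFoundedGT
    (fun Q : Ideal R => Q.IsPrime ∧ J ≤ Q ∧ a ∉ Q) hne
  refine ⟨Q, hQ.1.1, hQ.1.2.1, hQ.1.2.2, fun P hP hlt => ?_⟩
  by_contra hna
  exact absurd (hQ.2 ⟨hP, hQ.1.2.1.trans hlt.le, hna⟩ hlt.le) hlt.not_ge

/-- In a Noetherian local domain in which all nonzero primes contain `a`, powers of the maximal
ideal lie in `(a)`. -/
lemma exists_pow_le_span {D : Type*} [CommRing D] [IsDomain D] [IsNoetherianRing D] [IsLocalRing D]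
    {a : D} (ha0 : a ≠ 0) (hall : ∀ P : Ideal D, P.IsPrime → P ≠ ⊥ → a ∈ P) :
    ∃ N : ℕ, IsLocalRing.maximalIdeal D ^ N ≤ Ideal.span {a} := by
  classical
  refine Ideal.exists_pow_le_of_le_radical_of_fg ?_ (IsNoetherian.noetherian _)
  rw [Ideal.radical_eq_sInf, le_sInf_iff]
  rintro P ⟨haP, hP⟩
  set m := IsLocalRing.maximalIdeal D
  have hfin : (Ideal.span {a}).minimalPrimes.Finite :=
    Ideal.finite_minimalPrimes_of_isNoetherianRing D _
  by_cases hmem : m ∈ (Ideal.span {a}).minimalPrimes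
  · exact hmem.2 ⟨hP, haP⟩ (IsLocalRing.le_maximalIdeal hP.ne_top)
  exfalso
  obtain ⟨b, hbm, hb⟩ : ∃ b, b ∈ m ∧ ∀ P' ∈ (Ideal.span {a}).minimalPrimes, b ∉ P' := by
    by_contra hc
    push Not at hc
    have hsub : (m : Set D) ⊆ ⋃ i ∈ (hfin.toFinset : Set (Ideal D)), (i : Set D) := fun b hb => by
      obtain ⟨P', hP', hbP'⟩ := hc b hb
      exact Set.mem_biUnion (by simpa using hP') hbP'
    obtain ⟨P', hP', hle⟩ := (Ideal.subset_union_prime (f := fun i : Ideal D => i) ⊥ ⊥
      fun i hi _ _ => (hfin.mem_toFinset.1 hi).1.1).1 hsub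
    have hP'mem := hfin.mem_toFinset.1 hP'
    have heq : P' = m := le_antisymm (IsLocalRing.le_maximalIdeal hP'mem.1.1.ne_top) hle
    exact hmem (by rw [← heq]; exact hP'mem)
  obtain ⟨P₁, hP₁, -⟩ := Ideal.exists_minimalPrimes_le (I := Ideal.span {b}) (J := m)
    ((Ideal.span_singleton_le_iff_mem _).2 hbm)
  have hbP₁ : b ∈ P₁ := hP₁.1.2 (Ideal.subset_span rfl)
  have hprime₁ : P₁.IsPrime := hP₁.1.1
  have hh₁ : P₁.height ≤ 1 :=
    Ideal.height_le_one_of_isPrincipal_of_mem_minimalPrimes (Ideal.span {b}) P₁ hP₁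
  have haP₁ : a ∈ P₁ := by
    refine hall P₁ hprime₁ fun h => ?_
    have hb0 : b = 0 := by rw [h] at hbP₁; simpa using hbP₁
    obtain ⟨P₂, hP₂⟩ := Ideal.nonempty_minimalPrimes (I := Ideal.span {a})
      (ne_top_of_le_ne_top hP.ne_top haP)
    exact hb P₂ hP₂ (hb0 ▸ P₂.zero_mem)
  obtain ⟨P₂, hP₂, hle⟩ := Ideal.exists_minimalPrimes_le (I := Ideal.span {a}) (J := P₁)
    ((Ideal.span_singleton_le_iff_mem _).2 haP₁)
  have : P₂.IsPrime := hP₂.1.1
  have hne : P₂ ≠ P₁ := fun h => hb P₂ hP₂ (h ▸ hbP₁)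
  have h1 := Ideal.height_add_one_le_of_lt_of_isPrime (lt_of_le_of_ne hle hne)
  have h0 : P₂.height = 0 := by
    have h2 := h1.trans hh₁
    have h3 : P₂.height + 1 ≤ 0 + 1 := by rwa [zero_add]
    exact nonpos_iff_eq_zero.1 ((ENat.add_le_add_iff_right ENat.one_ne_top).1 h3)
  rw [Ideal.height_eq_zero_iff_eq_bot] at h0
  exact ha0 (by have := hP₂.1.2 (Ideal.subset_span rfl : a ∈ Ideal.span {a}); simpa [h0] using this)

/-- A domain with finite reduction is finite over a precomplete ring. -/
lemma finite_of_finite_quotient {A D : Type*} [CommRing A] [CommRing D] [IsDomain D]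
    [IsNoetherianRing D] [Algebra A D] (t : A) [IsPrecomplete (Ideal.span {t}) A]
    (ht : ¬ IsUnit (algebraMap A D t))
    [Finite (D ⧸ Ideal.span {algebraMap A D t})] : Module.Finite A D := by
  classical
  set a := algebraMap A D t
  cases nonempty_fintype (D ⧸ Ideal.span {a})
  set q := Ideal.Quotient.mk (Ideal.span {a})
  let rep : D ⧸ Ideal.span {a} → D := Function.surjInv Ideal.Quotient.mk_surjective
  have hrep : ∀ s, q (rep s) = s := Function.surjInv_eq _
  refine Module.Finite.of_fg_top ?_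
  refine ⟨Finset.univ.image rep, ?_⟩
  rw [eq_top_iff]
  intro y _
  have hdiv : ∀ y : D, ∃ w, y = rep (q y) + a * w := fun y => by
    obtain ⟨w, hw⟩ := Ideal.mem_span_singleton'.1
      ((Ideal.Quotient.eq (I := Ideal.span {a})).1 (hrep (q y)).symm)
    exact ⟨w, by linear_combination -hw⟩
  choose nxt hnxt using hdiv
  let S : ℕ → (D ⧸ Ideal.span {a}) → A := fun M s =>
    ∑ i ∈ Finset.range M, if q (nxt^[i] y) = s then t ^ i else 0
  have hexp : ∀ M, y = (∑ s, algebraMap A D (S M s) * rep s) + a ^ M * nxt^[M] y := by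
    intro M
    induction M with
    | zero => simp [S]
    | succ M ih =>
      have hs : ∑ s, algebraMap A D (S (M + 1) s) * rep s =
          (∑ s, algebraMap A D (S M s) * rep s) + a ^ M * rep (q (nxt^[M] y)) := by
        simp only [S, Finset.sum_range_succ, map_add, add_mul, Finset.sum_add_distrib]
        congr 1
        rw [Finset.sum_eq_single (q (nxt^[M] y))]
        · rw [if_pos rfl, map_pow]
        · intro s _ hne; rw [if_neg (Ne.symm hne), map_zero, zero_mul]
        · simp
      rw [hs, Function.iterate_succ_apply', pow_succ]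
      linear_combination ih + a ^ M * hnxt (nxt^[M] y)
  have hlim : ∀ s, ∃ L, ∀ M, S M s - L ∈ Ideal.span {t} ^ M := fun s => by
    obtain ⟨L, hL⟩ := IsPrecomplete.prec' (I := Ideal.span {t}) (M := A) (fun M => S M s)
      fun {m n} hmn => by
        rw [SModEq.sub_mem, smul_eq_mul, Ideal.mul_top, Ideal.span_singleton_pow]
        simp only [S]
        rw [← Finset.sum_range_add_sum_Ico _ hmn, sub_add_cancel_left]
        refine neg_mem (Ideal.sum_mem _ fun i hi => ?_)
        split_ifs
        · exact Ideal.mem_span_singleton.2 (pow_dvd_pow t (Finset.mem_Ico.1 hi).1)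
        · exact Ideal.zero_mem _
    exact ⟨L, fun M => by simpa [SModEq.sub_mem, Ideal.mul_top] using hL M⟩
  choose L hL using hlim
  have hy : y = ∑ s, L s • rep s := by
    rw [← sub_eq_zero, ← Ideal.mem_bot, ← Ideal.iInf_pow_eq_bot_of_isDomain (Ideal.span {a})
      (by rwa [Ne, Ideal.span_singleton_eq_top]), Ideal.mem_iInf]
    intro M
    conv in y - _ => rw [hexp M]
    rw [add_sub_right_comm, ← Finset.sum_sub_distrib]
    refine Ideal.add_mem _ (Ideal.sum_mem _ fun s _ => ?_) ?_
    · rw [Algebra.smul_def, ← sub_mul, ← map_sub]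
      refine Ideal.mul_mem_right _ _ ?_
      have := Ideal.mem_map_of_mem (algebraMap A D) (hL s M)
      rw [Ideal.map_pow, Ideal.map_span, Set.image_singleton] at this
      exact this
    · exact Ideal.mul_mem_right _ _ (Ideal.pow_mem_pow (Ideal.mem_span_singleton_self a) M)
  rw [hy]
  exact Submodule.sum_mem _ fun s _ => Submodule.smul_mem _ _
    (Submodule.subset_span (Finset.mem_image_of_mem rep (Finset.mem_univ s)))

lemma isPrecomplete_powerSeries (k : Type*) [CommRing k] :
    IsPrecomplete (Ideal.span {(PowerSeries.X : PowerSeries k)}) (PowerSeries k) := by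
  refine ⟨fun f hf => ⟨PowerSeries.mk fun i => PowerSeries.coeff i (f (i + 1)), fun n => ?_⟩⟩
  rw [SModEq.sub_mem, smul_eq_mul, Ideal.mul_top, Ideal.span_singleton_pow,
    Ideal.mem_span_singleton, PowerSeries.X_pow_dvd_iff]
  intro i hi
  have h := hf (show i + 1 ≤ n by omega)
  rw [SModEq.sub_mem, smul_eq_mul, Ideal.mul_top, Ideal.span_singleton_pow,
    Ideal.mem_span_singleton, PowerSeries.X_pow_dvd_iff] at h
  have := h i (Nat.lt_succ_self i)
  rw [map_sub] at this ⊢
  rw [PowerSeries.coeff_mk]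
  linear_combination -this

/-- A map out of a discrete valuation ring not killing a uniformiser is injective. -/
lemma injective_of_dvr {A B : Type*} [CommRing A] [IsDomain A] [IsDiscreteValuationRing A]
    [CommRing B] [IsDomain B] (f : A →+* B) {t : A} (ht : Irreducible t) (hf : f t ≠ 0) :
    Function.Injective f := by
  rw [injective_iff_map_eq_zero]
  intro x hx
  by_contra hne
  obtain ⟨m, u, rfl⟩ := IsDiscreteValuationRing.eq_unit_mul_pow_irreducible hne ht
  rw [map_mul, map_pow, mul_eq_zero] at hx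
  rcases hx with hx | hx
  · exact (u.isUnit.map f).ne_zero hx
  · exact pow_ne_zero _ hf hx

end Vale.Agent.P217.Points
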