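import Vale.Agent.P217.Eval.Basic
import Vale.Agent.P217.Points.Algebra
import Mathlib.FieldTheory.IsAlgClosed.Basic
import Mathlib.RingTheory.Algebraic.Integral

/-!
# P217: extending bounded maps into an algebraically closed ultrametric field
-/

noncomputable section

namespace Vale.Agent.P217.Points

open MvPowerSeries Finset Filter Topology

/-- The ideal generated by the variables. -/
def xIdeal (σ K : Type*) [CommRing K] : Ideal (MvPowerSeries σ K) :=
  Ideal.span (Set.range fun i : σ => (MvPowerSeries.X i : MvPowerSeries σ K))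

lemma mem_xIdeal_pow {σ K : Type*} [Fintype σ] [CommRing K] :
    ∀ (N : ℕ) (h : MvPowerSeries σ K), (∀ d, deg d < N → coeff d h = 0) →
      h ∈ xIdeal σ K ^ N := by
  classical
  intro N
  induction N with
  | zero => intro h _; simp
  | succ N ih =>
    intro h hh
    have hsplit : ∀ d : σ →₀ ℕ, d ≠ 0 → ∃ i, d i ≠ 0 := fun d hd => by
      by_contra hc
      push Not at hc
      exact hd (Finsupp.ext hc)
    let first : (d : σ →₀ ℕ) → d ≠ 0 → σ := fun d hd => (hsplit d hd).choose
    let part : σ → MvPowerSeries σ K := fun i d =>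
      if first (d + Finsupp.single i 1) (by simp) = i then coeff (d + Finsupp.single i 1) h else 0
    have hpart : ∀ i d, coeff d (part i) = if first (d + Finsupp.single i 1) (by simp) = i
        then coeff (d + Finsupp.single i 1) h else 0 := fun i d => rfl
    have heq : h = ∑ i, part i * MvPowerSeries.X i := by
      ext d
      rw [map_sum]
      have hterm : ∀ i, coeff d (part i * MvPowerSeries.X i) =
          if hd : d i ≠ 0 then
            (if first d (fun h0 => hd (by simp [h0])) = i then coeff d h else 0) else 0 := fun i => by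
        rw [MvPowerSeries.X_def, coeff_mul_monomial, mul_one]
        by_cases hd : d i ≠ 0
        · have hle : Finsupp.single i 1 ≤ d :=
            Finsupp.single_le_iff.2 (Nat.one_le_iff_ne_zero.2 hd)
          rw [if_pos hle, dif_pos hd, hpart]
          simp only [tsub_add_cancel_of_le hle]
        · rw [if_neg (fun hle => hd (Nat.one_le_iff_ne_zero.1 (Finsupp.single_le_iff.1 hle))),
            dif_neg hd]
      simp only [hterm]
      by_cases hd0 : d = 0
      · rw [Finset.sum_eq_zero fun i _ => dif_neg (by simp [hd0]), hd0]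
        exact hh 0 (by rw [Eval.deg_zero]; omega)
      · rw [Finset.sum_eq_single (first d hd0)]
        · rw [dif_pos (hsplit d hd0).choose_spec, if_pos rfl]
        · intro i _ hi
          split_ifs with h1 h2
          · exact absurd h2 (Ne.symm hi)
          · rfl
          · rfl
        · simp
    rw [heq, pow_succ]
    refine Ideal.sum_mem _ fun i _ => Ideal.mul_mem_mul (ih _ fun d hd => ?_)
      (Ideal.subset_span ⟨i, rfl⟩)
    rw [hpart]
    split_ifs
    · exact hh _ (by rw [Eval.deg_add, Eval.deg_single]; omega)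
    · rfl

variable {C : Type*} [NormedField C] [IsUltrametricDist C]

lemma norm_le_one_of_monic {q : Polynomial C} (hq : q.Monic) (hc : ∀ i, ‖q.coeff i‖ ≤ 1) {z : C}
    (hz : q.eval z = 0) : ‖z‖ ≤ 1 := by
  by_contra hlt
  push Not at hlt
  rw [Polynomial.eval_eq_sum_range, Finset.sum_range_succ, hq.coeff_natDegree, one_mul,
    add_eq_zero_iff_neg_eq] at hz
  rcases Nat.eq_zero_or_pos q.natDegree with h0 | h0
  · rw [h0] at hz; simp at hz
  · have h1 : ‖∑ i ∈ Finset.range q.natDegree, q.coeff i * z ^ i‖ ≤ ‖z‖ ^ (q.natDegree - 1) := by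
      refine IsUltrametricDist.norm_sum_le_of_forall_le_of_nonneg (by positivity) fun i hi => ?_
      rw [norm_mul, norm_pow]
      exact (mul_le_of_le_one_left (by positivity) (hc i)).trans
        (pow_le_pow_right₀ hlt.le (by have := Finset.mem_range.1 hi; omega))
    have h2 : ‖z ^ q.natDegree‖ = ‖∑ i ∈ Finset.range q.natDegree, q.coeff i * z ^ i‖ := by
      rw [← hz, norm_neg]
    rw [norm_pow] at h2
    have h3 : ‖z‖ ^ (q.natDegree - 1) < ‖z‖ ^ q.natDegree :=
      pow_lt_pow_right₀ hlt (by omega)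
    linarith

variable [CompleteSpace C] {σ : Type*} [Fintype σ] {K : Type*} [CommRing K]

omit [IsUltrametricDist C] [CompleteSpace C] [Fintype σ] in
lemma intSer_map {e : K →+* C} (he : ∀ c, ‖e c‖ ≤ 1) (f : MvPowerSeries σ K) :
    IntSer (MvPowerSeries.map e f) := fun d => by rw [coeff_map]; exact he _

/-- Evaluation as a ring homomorphism. -/
def evHom (e : K →+* C) (he : ∀ c, ‖e c‖ ≤ 1) (x : σ → C) (hx : Small x) :
    MvPowerSeries σ K →+* C where
  toFun f := ev x (MvPowerSeries.map e f)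
  map_one' := by
    rw [map_one, ← map_one (MvPowerSeries.C (σ := σ) (R := C))]
    exact Eval.ev_C x 1
  map_mul' f g := by
    rw [map_mul]; exact Eval.ev_mul (intSer_map he f) (intSer_map he g) hx
  map_zero' := by
    rw [map_zero, ← map_zero (MvPowerSeries.C (σ := σ) (R := C))]
    exact Eval.ev_C x 0
  map_add' f g := by
    rw [map_add]; exact Eval.ev_add (intSer_map he f) (intSer_map he g) hx

omit [CompleteSpace C] [Fintype σ] in
lemma norm_le_on_pow {θ : MvPowerSeries σ K →+* C} (hθ : ∀ f, ‖θ f‖ ≤ 1) {r : ℝ} (hr0 : 0 ≤ r)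
    (hr : ∀ i, ‖θ (MvPowerSeries.X i)‖ ≤ r) :
    ∀ N, ∀ f ∈ xIdeal σ K ^ N, ‖θ f‖ ≤ r ^ N := by
  intro N
  induction N with
  | zero => exact fun f _ => by simpa using hθ f
  | succ N ih =>
    intro f hf
    rw [pow_succ] at hf
    refine Submodule.mul_induction_on hf (fun g hg h hh => ?_) fun g h hg hh => ?_
    · rw [map_mul, norm_mul, pow_succ]
      refine mul_le_mul (ih g hg) ?_ (norm_nonneg _) (pow_nonneg hr0 _)
      refine Submodule.span_induction (p := fun h _ => ‖θ h‖ ≤ r) ?_ ?_ ?_ ?_ hh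
      · rintro _ ⟨i, rfl⟩; exact hr i
      · simpa using hr0
      · intro a b _ _ ha hb
        rw [map_add]
        exact (IsUltrametricDist.norm_add_le_max _ _).trans (max_le ha hb)
      · intro a b _ hb
        rw [smul_eq_mul, map_mul, norm_mul]
        exact (mul_le_of_le_one_left (norm_nonneg _) (hθ a)).trans hb
    · rw [map_add]
      exact (IsUltrametricDist.norm_add_le_max _ _).trans (max_le hg hh)

omit [CompleteSpace C] in
lemma hom_ext {θ η : MvPowerSeries σ K →+* C} (hθ : ∀ f, ‖θ f‖ ≤ 1) (hη : ∀ f, ‖η f‖ ≤ 1)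
    {r : ℝ} (hr0 : 0 ≤ r) (hr1 : r < 1) (hrθ : ∀ i, ‖θ (MvPowerSeries.X i)‖ ≤ r)
    (hC : ∀ c, θ (MvPowerSeries.C c) = η (MvPowerSeries.C c))
    (hX : ∀ i, θ (MvPowerSeries.X i) = η (MvPowerSeries.X i)) : θ = η := by
  classical
  have hmon : ∀ (d : σ →₀ ℕ) c, θ (monomial d c) = η (monomial d c) := fun d => by
    induction d using Eval.deg_induction with
    | h0 => intro c; rw [monomial_zero_eq_C_apply]; exact hC c
    | hs i d ih =>
      intro c
      rw [← one_mul c, ← monomial_mul_monomial, ← MvPowerSeries.X_def, map_mul, map_mul, hX i, ih c]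
  ext f
  have key : ∀ N, ‖θ f - η f‖ ≤ r ^ N := fun N => by
    let s := (Eval.finite_deg_lt (σ := σ) N).toFinset
    set g := ∑ d ∈ s, monomial d (coeff d f)
    have hmem : f - g ∈ xIdeal σ K ^ N := by
      refine mem_xIdeal_pow N _ fun d hd => ?_
      rw [map_sub, map_sum, Finset.sum_eq_single d]
      · rw [coeff_monomial_same, sub_self]
      · intro d' _ hne; rw [coeff_monomial_ne (Ne.symm hne)]
      · intro h; exact absurd (by simpa [s] using hd) h
    have hg : θ g = η g := by simp only [g, map_sum, hmon]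
    rw [show θ f - η f = θ (f - g) - η (f - g) by rw [map_sub, map_sub, hg]; ring]
    exact (Eval.norm_sub_le_max' _ _).trans (max_le (norm_le_on_pow hθ hr0 hrθ N _ hmem)
      (norm_le_on_pow hη hr0 (fun i => hX i ▸ hrθ i) N _ hmem))
  exact sub_eq_zero.1 (norm_le_zero_iff.1
    (ge_of_tendsto' (tendsto_pow_atTop_nhds_zero_of_lt_one hr0 hr1) key))

theorem exists_point [IsAlgClosed C] {A : Type*} [CommRing A] [IsDomain A]
    (Q : Ideal (MvPowerSeries σ K)) [Q.IsPrime] (φ : A →+* MvPowerSeries σ K ⧸ Q)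
    (ψ₀ : A →+* C) (t : A) {e : K →+* C} (he : ∀ c, ‖e c‖ ≤ 1)
    (hφ : Function.Injective φ) (hφfin : φ.Finite) (hψ₀ : Function.Injective ψ₀)
    (hψ₀1 : ∀ s, ‖ψ₀ s‖ ≤ 1) (ht : ‖ψ₀ t‖ < 1)
    (hX : ∀ i, ∃ N : ℕ, Ideal.Quotient.mk Q (MvPowerSeries.X i) ^ N ∈ Ideal.span {φ t})
    (hC : ∀ c, ∃ s, φ s = Ideal.Quotient.mk Q (MvPowerSeries.C c) ∧ ψ₀ s = e c) :
    ∃ x : σ → C, Small x ∧ ∃ θ : MvPowerSeries σ K ⧸ Q →+* C, (∀ s, θ (φ s) = ψ₀ s) ∧
      ∀ f, ev x (MvPowerSeries.map e f) = θ (Ideal.Quotient.mk Q f) := by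
  let := φ.toAlgebra
  let : Algebra A C := ψ₀.toAlgebra
  have : Module.Finite A (MvPowerSeries σ K ⧸ Q) := hφfin
  have : Module.IsTorsionFree A (MvPowerSeries σ K ⧸ Q) :=
    Module.isTorsionFree_iff_algebraMap_injective.2 hφ
  have : Module.IsTorsionFree A C := Module.isTorsionFree_iff_algebraMap_injective.2 hψ₀
  have : Algebra.IsIntegral A (MvPowerSeries σ K ⧸ Q) := Algebra.IsIntegral.of_finite A _
  have : Algebra.IsAlgebraic A (MvPowerSeries σ K ⧸ Q) := Algebra.IsIntegral.isAlgebraic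
  let θ : MvPowerSeries σ K ⧸ Q →ₐ[A] C := IsAlgClosed.lift
  have hθφ : ∀ s, θ (φ s) = ψ₀ s := θ.commutes
  have hbd : ∀ y, ‖θ y‖ ≤ 1 := fun y => by
    obtain ⟨q, hq, hy⟩ := (Algebra.IsIntegral.isIntegral (R := A) y).map θ
    refine norm_le_one_of_monic (hq.map (algebraMap A C)) (fun i => ?_)
      (by rw [Polynomial.eval_map]; exact hy)
    rw [Polynomial.coeff_map]; exact hψ₀1 _
  have hlt : ∀ i, ‖θ (Ideal.Quotient.mk Q (MvPowerSeries.X i))‖ < 1 := fun i => by
    obtain ⟨N, hN⟩ := hX i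
    obtain ⟨w, hw⟩ := Ideal.mem_span_singleton'.1 hN
    by_contra hge
    push Not at hge
    have h1 := one_le_pow₀ (n := N) hge
    rw [← norm_pow, ← map_pow, ← hw, map_mul, hθφ, norm_mul] at h1
    linarith [(mul_le_of_le_one_left (norm_nonneg (ψ₀ t)) (hbd w)).trans_lt ht]
  set x : σ → C := fun i => θ (Ideal.Quotient.mk Q (MvPowerSeries.X i))
  have hx : Small x := hlt
  obtain ⟨r, hr0, hr1, hr⟩ := Eval.exists_radius hx
  refine ⟨x, hx, θ.toRingHom, hθφ, fun f => ?_⟩
  have hev : evHom e he x hx = θ.toRingHom.comp (Ideal.Quotient.mk Q) := by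
    refine hom_ext (fun g => Eval.norm_ev_le_one (intSer_map he g) hx) (fun g => hbd _) hr0 hr1
      (fun i => ?_) (fun c => ?_) fun i => ?_
    · change ‖ev x (MvPowerSeries.map e (MvPowerSeries.X i))‖ ≤ r
      rw [map_X, Eval.ev_X]; exact hr i
    · obtain ⟨s, hs1, hs2⟩ := hC c
      change ev x (MvPowerSeries.map e (MvPowerSeries.C c)) = θ (Ideal.Quotient.mk Q _)
      rw [map_C, Eval.ev_C, ← hs1, hθφ, hs2]
    · change ev x (MvPowerSeries.map e (MvPowerSeries.X i)) = x i
      rw [map_X, Eval.ev_X]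
  exact DFunLike.congr_fun hev f

end Vale.Agent.P217.Points
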